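import Vale.Agent.P231.S3E479.Equi

/-!
# P231, stage 3, block SEG: generic complex linear projections
-/

set_option linter.unusedSectionVars false
set_option linter.unusedVariables false

open Set Filter Module Topology MeasureTheory
open scoped ContDiff

namespace Vale.Agent.P231.SEG2

noncomputable section

variable {V : Type*} [NormedAddCommGroup V] [NormedSpace ℝ V] [FiniteDimensional ℝ V]

/-- **generic complex linear projection**: a smooth nowhere zero family of vectors, stable under
multiplication by complex numbers, over a parameter space of dimension at most `2 n`, stays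
nowhere zero after a suitable linear map to `ℂⁿ` -/
theorem exists_gen {T : Set V} {n : ℕ} (hd : finrank ℝ V ≤ 2 * n) (K : ℕ) :
    ∀ {f : V → (Fin K → ℂ)}, (∀ s ∈ T, DifferentiableAt ℝ f s) → (∀ s ∈ T, f s ≠ 0) →
      (∀ s ∈ T, ∀ c : ℂ, c ≠ 0 → ∃ s' ∈ T, f s' = c • f s) →
      ∃ A : (Fin K → ℂ) →L[ℂ] (Fin n → ℂ), ∀ s ∈ T, A (f s) ≠ 0 := by
  induction K with
  | zero =>
    intro f _ h0 _
    refine ⟨0, fun s hs _ => h0 s hs (funext fun i => i.elim0)⟩
  | succ K ih =>
    intro f hf h0 hC
    rcases Nat.lt_or_ge K n with hk | hk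
    · obtain ⟨P, hP⟩ := S3E.exists_inj (show K + 1 ≤ n from hk)
      exact ⟨P, fun s hs hv => h0 s hs (hP _ hv)⟩
    · obtain ⟨a, ha, h1⟩ := S3E.exists_line (W := Fin (K + 1) → ℂ) hf (by
        have h4 : finrank ℝ (Fin (K + 1) → ℂ) = 2 * (K + 1) := by
          have := finrank_real_of_complex (Fin (K + 1) → ℂ)
          rw [this, finrank_fin_fun]
        rw [h4]
        omega)
      obtain ⟨P, hP⟩ := S3E.exists_lin ha
      have hne : ∀ s ∈ T, P (f s) ≠ 0 := by
        intro s hs hv
        obtain ⟨c, hc⟩ := hP _ hv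
        have hc0 : c ≠ 0 := fun h => h0 s hs (by rw [hc, h, zero_smul])
        obtain ⟨s', hs', h2⟩ := hC s hs c⁻¹ (inv_ne_zero hc0)
        refine h1 1 s' hs' ?_
        rw [one_smul, h2, hc, smul_smul, inv_mul_cancel₀ hc0, one_smul]
      obtain ⟨A, hA⟩ := ih (f := fun s => P (f s))
        (fun s hs => ((P.restrictScalars ℝ).differentiableAt).comp s (hf s hs)) hne
        (fun s hs c hc => by
          obtain ⟨s', hs', h2⟩ := hC s hs c hc
          exact ⟨s', hs', by rw [h2, map_smul]⟩)
      exact ⟨A.comp P, hA⟩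

end

end Vale.Agent.P231.SEG2
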